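import Vale.Agent.P207.Bridge

/-!
# P207: Katok's entropy rigidity in Kähler classes, and an integral criterion

`M` is a closed connected smooth manifold of dimension `n ≥ 2`. For metrics `g₀, g₁` of strictly
negative sectional curvature the theorem compares the Liouville entropy of `g₀` with the
topological entropy of `g₁`, settles Katok's question for all negatively curved Kähler metrics
whose Kähler class is proportional to that of a locally symmetric one, and gives a criterion in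
terms of the averages of the `g₁`-length over the `g₀`-unit vectors (and conversely).
-/

open scoped Manifold ContDiff ENNReal

noncomputable section

namespace Vale.Agent.Results.P207.KaehlerClass

open Vale.Agent.P255 (RMetric)
open Vale.Agent.P207F

theorem result (n : ℕ) (hn : 2 ≤ n) (M : Type) [TopologicalSpace M] [CompactSpace M] [T2Space M]
    [ConnectedSpace M] [ChartedSpace (EV n) M] [IsManifold 𝓘(ℝ, EV n) ∞ M] [MeasurableSpace M]
    [BorelSpace M] :
    (∀ g : RMetric (EV n) M, WellDefined (stdB n) g) ∧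
    ∀ g₀ g₁ : RMetric (EV n) M, NegCurvature g₀ → NegCurvature g₁ →
      hLiou (stdB n) g₀ ≤ ENNReal.ofReal (meanLen (stdB n) g₀ g₁) * hTop g₁ ∧
      KaehlerCase (stdB n) g₀ g₁ ∧
      Criterion (stdB n) g₀ g₁ := by
  have hW := fun g : RMetric (EV n) M => wellDefined hn g
  refine ⟨hW, ?_⟩
  intro g₀ g₁ hN₀ hN₁
  have hφ₀ := ((hW g₀).1 _).2 rfl
  have hφ₁ := ((hW g₁).1 _).2 rfl
  have hμ₀ := ((hW g₀).2.1 _).2 rfl
  have hμ₁ := ((hW g₁).2.1 _).2 rfl
  have hm₀ := ((hW g₀).2.2 _).2 rfl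
  have hm₁ := ((hW g₁).2.2 _).2 rfl
  obtain ⟨h1, h2, h3⟩ :=
    (P207.main hn).2 g₀ g₁ hN₀ hN₁ _ _ _ _ _ _ hφ₀ hφ₁ hμ₀ hμ₁ hm₀ hm₁
  refine ⟨h1, fun J c hK₀ hK₁ hc => ?_, h3⟩
  obtain ⟨hc0, hB₀, hB₁, h4, h5⟩ := h2 J c hK₀ hK₁ hc
  have hB := (congrArg₂ (fun a b : ℝ => a * b) hB₀ hB₁).trans (mul_inv_cancel₀ hc0.ne') |>.le
  refine ⟨hc0, h4, h5, fun e₀ e₁ => ?_, (h3 (Or.inr hB)).2⟩
  obtain ⟨c', -, hc', h6⟩ :=
    P207.criterion hn hN₀ hN₁ hφ₀ hφ₁ hμ₀ hμ₁ hm₀ hm₁ (Or.inr hB) e₀ e₁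
  rw [hc', hB₀] at h6
  exact h6

end Vale.Agent.Results.P207.KaehlerClass
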