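import Vale.Agent.P207.FDefs2
import Vale.Agent.P207.Bridge
import Vale.Agent.P207.Gen

/-!
# P207: Katok's conjecture on a `C⁰`-open and `C^∞`-dense set of metrics

On every closed connected smooth manifold of dimension `n ≥ 2` there is a set `𝒰` of negatively
curved metrics, `C⁰`-open and `C^∞`-dense among the negatively curved ones, whose elements satisfy
`h_L < h_top` and are not locally symmetric. Moreover every conformal class, and for every complex
structure every projectivized Kähler class, contains at most one negatively curved metric outside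
`𝒰`, up to scaling.
-/

open scoped Manifold ContDiff ENNReal

noncomputable section

namespace Vale.Agent.Results.P207.OpenDense

open Vale.Agent.P255 (RMetric)
open Vale.Agent.P207F

theorem result (n : ℕ) (hn : 2 ≤ n) (M : Type) [TopologicalSpace M] [CompactSpace M] [T2Space M]
    [ConnectedSpace M] [ChartedSpace (EV n) M] [IsManifold 𝓘(ℝ, EV n) ∞ M] [MeasurableSpace M]
    [BorelSpace M] :
    (∀ g : RMetric (EV n) M, WellDefined (stdB n) g) ∧
    ∃ 𝒰 : Set (RMetric (EV n) M), StrictOn (stdB n) 𝒰 ∧ C0Open 𝒰 ∧ SmoothDense (stdB n) 𝒰 ∧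
      UniqueOutside (stdB n) 𝒰 := by
  have hW := fun g : RMetric (EV n) M => wellDefined hn g
  refine ⟨hW, ?_⟩
  have hφ := fun g : RMetric (EV n) M => ((hW g).1 _).2 rfl
  have hμ := fun g : RMetric (EV n) M => ((hW g).2.1 _).2 rfl
  have hm := fun g : RMetric (EV n) M => ((hW g).2.2 _).2 rfl
  obtain ⟨𝒰, h1, h2, h3, h4, h5⟩ := P207.generic (n := n) (M := M) hn
  refine ⟨𝒰, fun g hg => ⟨(h1 g hg).1, (h1 g hg).2.1, (h1 g hg).2.2 _ _ _ (hφ g) (hμ g) (hm g)⟩,
    h2, h5, fun g₀ g₁ hN₀ hN₁ hg₀ hg₁ => ⟨?_, fun hr => ?_⟩⟩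
  · by_contra hlt
    push Not at hlt
    have key := h3 g₀ g₁ hN₀ hN₁ fun μ₀ μ₁ m₀ m₁ hμ₀ hμ₁ hm₀ hm₁ => by
      have e₀ : μ₀ = vol (stdB n) g₀ := ((hW g₀).2.1 μ₀).1 hμ₀
      have e₁ : μ₁ = vol (stdB n) g₁ := ((hW g₁).2.1 μ₁).1 hμ₁
      subst e₀ e₁
      have e₂ : m₀ = liou (stdB n) g₀ := ((hW g₀).2.2 m₀).1 hm₀
      have e₃ : m₁ = liou (stdB n) g₁ := ((hW g₁).2.2 m₁).1 hm₁
      subst e₂ e₃
      exact hlt
    exact key.elim hg₀ hg₁
  · rcases h4 g₀ g₁ hN₀ hN₁ hr with ⟨c, hc⟩ | h | h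
    · exact ⟨c, IsMul.pos (by omega) hc, hc⟩
    · exact absurd h hg₀
    · exact absurd h hg₁

end Vale.Agent.Results.P207.OpenDense
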