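import Vale.Agent.P207.FDefs3
import Vale.Agent.P207.Q.H717.PDefs2
import Vale.Agent.P207.Q.H717.PPinchA
import Vale.Agent.P207.Q.H717.CoreA
import Vale.Agent.P207.Q.H791.Final2

/-!
# P207: Katok's conjecture for pinched 3-manifolds

On a closed connected smooth 3-manifold let `g` be a Riemannian metric for which there is a
constant `κ > 0` such that at every point `x` there is `k(x) ≥ κ` with
`-(14/5 k(x) + 6/5 κ) < K ≤ -k(x)` for all sectional curvatures `K` at `x`. This class contains the
strictly quarter-pinched metrics (`k = κ`) and the metrics with `-(14/5) k(x) ≤ K ≤ -k(x)`,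
`k(x) > 0`, at every point `x`, without any comparison of the curvatures at different points.
Then `h_L ≤ h_top`, with equality if and only if `g` is locally symmetric, and if and only if `g`
has constant curvature.
-/

open scoped Manifold ContDiff ENNReal

noncomputable section

namespace Vale.Agent.Results.P207.PinchedThree

open Vale.Agent.P255 (RMetric)
open Vale.Agent.P207F

theorem result (M : Type) [TopologicalSpace M] [CompactSpace M] [T2Space M] [ConnectedSpace M]
    [ChartedSpace (EV 3) M] [IsManifold 𝓘(ℝ, EV 3) ∞ M] [MeasurableSpace M] [BorelSpace M] :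
    (∀ g : RMetric (EV 3) M, WellDefined (stdB 3) g) ∧
    (∀ g : RMetric (EV 3) M, QuarterPinched g → PinchedA g) ∧
    (∀ g : RMetric (EV 3) M, PointwisePinchedA g → PinchedA g) ∧
    ∀ g : RMetric (EV 3) M, PinchedA g →
      NegCurvature g ∧ hLiou (stdB 3) g ≤ hTop g ∧
      (hLiou (stdB 3) g = hTop g ↔ LocSymmetric g) ∧
      (hLiou (stdB 3) g = hTop g ↔ ∃ κ : ℝ, 0 < κ ∧ ConstCurvature g κ) := by
  obtain ⟨h1, h2⟩ := QP.final2 (M := M) (P := PinchedA)
    (fun _ h => negCurvature_iff.2 (P207.Q.H717.negCurvature_of_A h)) P207.Q.H717.core_A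
  exact ⟨h1, fun _ h => P207.Q.H717.QuarterPinched.pinchedA h,
    fun _ h => P207.Q.H717.PointwisePinchedA.pinchedA (i₀ := 0) (i₁ := 1) (by decide) h, h2⟩

end Vale.Agent.Results.P207.PinchedThree
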